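import Vale.Agent.P011UE.Spec

/-!
Quaternion algebras over a cubic extension: the statements of the arithmetic steps.
-/

set_option autoImplicit false
set_option linter.all false

open Module
open scoped commutatorElement

namespace Vale.Agent.P011UF

open Vale.Agent.P011L (Glob)
open Vale.Agent.P011.H738 (Place)
open Vale.Agent.P011.W (Spl)
open Vale.Agent.P011UE

/-- The polynomial `X ^ 2 - t X + n` has no root in the completion. -/
def Ine {l : Type} [Field l] (w : Place l) (t n : l) : Prop :=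
  ∀ x : w.comp, x ^ 2 - algebraMap l w.comp t * x + algebraMap l w.comp n ≠ 0

/-- The polynomial `X ^ 2 - t X + n` has no real root. -/
def IneR {l : Type} [Field l] (φ : l →+* ℝ) (t n : l) : Prop :=
  ∀ x : ℝ, x ^ 2 - φ t * x + φ n ≠ 0

/-- The polynomial `X ^ 2 - t X + n` is integral and has no root in the residue field. -/
def Unr {l : Type} [Field l] (w : Place l) (t n : l) : Prop :=
  w.abv t ≤ 1 ∧ w.abv n ≤ 1 ∧ ∀ x : l, w.abv x ≤ 1 → w.abv (x ^ 2 - t * x + n) = 1

/-- `y` is a root of `X ^ 2 - t X + n`. -/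
def Rt {l Q : Type} [Field l] [Ring Q] [Algebra l Q] (t n : l) (y : Q) : Prop :=
  y * y - t • y + algebraMap l Q n = 0

/-- The polynomials over `k` which are separable and have no root at the places of `B` and `R`. -/
structure Good (k : Type) {l : Type} [Field k] [Field l] [Algebra k l] (B : Finset (Place l))
    (R : Set (l →+* ℝ)) (t n : k) : Prop where
  ne : t ≠ 0
  sep : t ^ 2 ≠ 4 * n
  fin : ∀ w ∈ B, Ine w (algebraMap k l t) (algebraMap k l n)
  real : ∀ φ ∈ R, IneR φ (algebraMap k l t) (algebraMap k l n)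

/-- The noncentral units with trace and norm in `k` which generate a separable algebra. -/
def Sq (k l Q : Type) [Field k] [Field l] [Algebra k l] [Ring Q] [Algebra l Q] : Set Qˣ :=
  {y | (y : Q) ∉ Set.range (algebraMap l Q) ∧ ∃ t n : k, t ≠ 0 ∧ t ^ 2 ≠ 4 * n ∧
    Rt (algebraMap k l t) (algebraMap k l n) (y : Q)}

/-- A statement for all quaternion division algebras. -/
def AllQ (P : ∀ (l Q : Type) [Field l] [DivisionRing Q] [Algebra l Q] [FiniteDimensional l Q],
    (Q →* l) → Prop) : Prop :=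
  ∀ (l Q : Type) [Field l] [DivisionRing Q] [Algebra l Q] [FiniteDimensional l Q] (N : Q →* l),
    Dv l Q 2 N → P l Q N

/-- Embedding of quadratic extensions. -/
def EMB : Prop := AllQ fun l Q _ _ _ _ _ => ∀ t n : l, t ^ 2 ≠ 4 * n →
  (∀ w : Place l, Dp Q w → Ine w t n) → (∀ φ : l →+* ℝ, Spl Q 2 φ ∨ IneR φ t n) →
    ∃ y : Q, y ∉ Set.range (algebraMap l Q) ∧ Rt t n y

/-- The absolute values of the algebra. -/
def VAL : Prop := AllQ fun l Q _ _ _ _ N =>
  (∀ w : Place l, Dp Q w → ∀ x y : Q, w.abv (N (x + y)) ≤ max (w.abv (N x)) (w.abv (N y))) ∧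
  (∀ T : Finset (Place l), (∀ w ∈ T, Dp Q w) → ∀ O ∈ nU T Q, ∃ ε : ℝ, 0 < ε ∧
    ∀ u : Qˣ, (∀ w ∈ T, w.abv (N ((u : Q) - 1)) < ε) → u ∈ O) ∧
  ∀ (T : Finset (Place l)) (y : Place l → Q) (ε : ℝ), 0 < ε →
    ∃ z : Q, ∀ w ∈ T, w.abv (N (z - y w)) < ε

/-- The local group of the elements of norm one is generated by commutators. -/
def LOCD : Prop := AllQ fun l Q _ _ _ _ N => ∀ w : Place l,
  (∀ x y : Q, w.abv (N (x + y)) ≤ max (w.abv (N x)) (w.abv (N y))) →
  ∀ H : Subgroup Qˣ, H.Normal → H ≤ G1 N →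
    ((∃ s : Qˣ, (∀ y, ⁅s, y⁆ ∈ H) ∧ ∀ c : l, w.abv (N s) ≠ w.abv c ^ 2) ∨
      (∃ t n, Unr w t n) ∧ ∀ t n, Unr w t n → ∃ (s : Qˣ) (t' n' : l), (∀ y, ⁅s, y⁆ ∈ H) ∧
        w.abv (t' - t) < 1 ∧ w.abv (n' - n) < 1 ∧ Rt t' n' (s : Q)) →
    ∀ g ∈ G1 N, ∀ ε : ℝ, 0 < ε → ∃ h ∈ H, w.abv (N ((h : Q) - g)) < ε

/-- A statement for all cubic extensions of global fields and finite sets of places. -/
def AllC (P : ∀ (k l : Type) [Field k] [Field l] [Algebra k l],
    Finset (Place l) → Set (l →+* ℝ) → Prop) : Prop :=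
  ∀ (k l : Type) [Field k] [Field l] [Algebra k l], Glob k → finrank k l = 3 →
    ∀ B R, P k l B R

/-- Good polynomials with a prescribed behaviour at one place. -/
def GD1 : Prop := AllC fun k l _ _ _ B R => ∀ w ∈ B,
  (∃ t n, Good k B R t n ∧ ∀ c : l, w.abv (algebraMap k l n) ≠ w.abv c ^ 2) ∨
    (∃ t n, Unr w t n) ∧ ∀ t n, Unr w t n → ∃ t' n', Good k B R t' n' ∧
      w.abv (algebraMap k l t' - t) < 1 ∧ w.abv (algebraMap k l n' - n) < 1

/-- The constant terms of the good polynomials generate the positive elements. -/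
def GD2 : Prop := AllC fun k l _ _ _ B R => (∃ t n, Good k B R t n) ∧ ∀ x : kˣ,
  (∀ φ ∈ R, 0 < φ (algebraMap k l x)) → x ∈ Subgroup.closure {n : kˣ | ∃ t, Good k B R t n}

/-- The units with reduced norm in `k`. -/
def QA : Prop := AllQ fun l Q _ _ _ _ N => ∀ (k : Type) [Field k] [Algebra k l], Glob k →
  finrank k l = 3 → ∀ x : Qˣ, N x ∈ Set.range (algebraMap k l) → x ∈ Subgroup.closure (Sq k l Q)

/-- The split case. -/
def QS : Prop := ∀ (k l : Type) [Field k] [Infinite k] [Field l] [Algebra k l]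
  (x : (Matrix (Fin 2) (Fin 2) l)ˣ), x.1.det ∈ Set.range (algebraMap k l) →
    x ∈ Subgroup.closure (Sq k l (Matrix (Fin 2) (Fin 2) l))

end Vale.Agent.P011UF
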