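import Vale.Agent.P011UTS.Opp

/-!
The root system of type `D₄`.
-/

set_option autoImplicit false
set_option linter.all false

namespace Vale.Agent.P011UF

open Matrix Vale.Agent.P183CH Vale.Agent.P011U Vale.Agent.P011UP Vale.Agent.P011UTS

variable {R : RS} (e : Fin R.r ≃ Fin 4)

/-- vectors in the standard numbering -/
def rt (v : Fin 4 → ℤ) : R.Q := fun i => v (e i)

/-- the pairing with the coroots -/
def p4 (v : Fin 4 → ℤ) : Fin 4 → ℤ :=
  ![2 * v 0 - v 1, 2 * v 1 - v 0 - v 2 - v 3, 2 * v 2 - v 1, 2 * v 3 - v 1]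

/-- the leaves of the diagram -/
def lv : Set (Fin R.r) := {i | e i ≠ 1}

/-- the numbering of the leaves -/
def lf : Fin 3 → Fin 4 := ![0, 2, 3]

theorem lf_ne (i : Fin 3) : lf i ≠ 1 := by revert i; decide

theorem lf_inj : Function.Injective lf := by decide

theorem lf_or (a : Fin 4) : a = 1 ∨ ∃ i, lf i = a := by revert a; decide

theorem rt_α (a : Fin 4) : R.α (e.symm a) = rt e (Pi.single a 1) := funext fun i => by
  simp [rt, RS.α_apply, Pi.single_apply, Equiv.eq_symm_apply]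

theorem rt_eq (γ : R.Q) : γ = rt e fun a => γ (e.symm a) := funext fun i => by simp [rt]

theorem rt_neg (v : Fin 4 → ℤ) : -rt e v = rt e (-v) := rfl

theorem rt_nonneg {v : Fin 4 → ℤ} (h : 0 ≤ v) : 0 ≤ rt e v := fun _ => h _

theorem rt_not_In {v : Fin 4 → ℤ} (h : v 1 ≠ 0) : ¬R.In (lv e) (rt e v) := fun c =>
  h (by simpa [rt] using c (e.symm 1) (by simp [lv]))

variable {e} (he : Ty R (CartanMatrix.D 4) e)
include he

theorem A_eq (a b : Fin 4) : R.A (e.symm a) (e.symm b) = CartanMatrix.D 4 a b := by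
  rw [he, e.apply_symm_apply, e.apply_symm_apply]

theorem rt_pr (v : Fin 4 → ℤ) (b : Fin 4) : R.pr (rt e v) (e.symm b) = p4 v b := by
  rw [RS.pr_eq, ← e.symm.sum_comp, Fin.sum_univ_four]
  simp only [A_eq he, rt, e.apply_symm_apply, CartanMatrix.D_four]
  fin_cases b <;> simp [p4] <;> ring

theorem rt_s (hR : R.Ok) (v : Fin 4 → ℤ) (b : Fin 4) :
    R.sE (e.symm b) (rt e v) = rt e (v - p4 v b • Pi.single b 1) := by
  rw [hR.sE_eq, rt_pr he, rt_α]
  rfl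

omit he in
theorem rt_inj {v v' : Fin 4 → ℤ} (h : rt e v = rt e v') : v = v' := funext fun a => by
  simpa [rt] using congrFun h (e.symm a)

theorem quad (hR : R.Ok) : ∀ γ ∈ R.Φ, ∀ v, γ = rt e v →
    (v 1 - 2 * v 0) ^ 2 + (v 1 - 2 * v 2) ^ 2 + (v 1 - 2 * v 3) ^ 2 + v 1 ^ 2 = 4 := by
  refine rt_ind hR (fun i v h => ?_) fun i γ _ ih v h => ?_
  · obtain ⟨a, rfl⟩ := e.symm.surjective i
    obtain rfl := rt_inj ((rt_α e a).symm.trans h)
    clear h
    revert a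
    decide
  · obtain ⟨a, rfl⟩ := e.symm.surjective i
    have h1 := ih _ (rt_eq e γ)
    rw [← hR.sE_apply, rt_eq e γ, rt_s he hR] at h
    obtain rfl := rt_inj h
    rw [← h1]
    fin_cases a <;> simp [p4] <;> ring

omit he in
theorem quad' {a b c d : ℤ}
    (h : (b - 2 * a) ^ 2 + (b - 2 * c) ^ 2 + (b - 2 * d) ^ 2 + b ^ 2 = 4) :
    (2 ≤ b ∨ 3 ≤ a + c + d → a = 1 ∧ c = 1 ∧ d = 1 ∧ (b = 1 ∨ b = 2)) := by
  have h0 := sq_nonneg (b - 2 * a)
  have h1 := sq_nonneg (b - 2 * c)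
  have h2 := sq_nonneg (b - 2 * d)
  have h3 := sq_nonneg b
  have k : ∀ x : ℤ, x ^ 2 ≤ 4 → -2 ≤ x ∧ x ≤ 2 := fun x e => by constructor <;> nlinarith
  obtain ⟨b1, b2⟩ := k b (by omega)
  obtain ⟨a1, a2⟩ := k (b - 2 * a) (by omega)
  obtain ⟨c1, c2⟩ := k (b - 2 * c) (by omega)
  obtain ⟨d1, d2⟩ := k (b - 2 * d) (by omega)
  have a3 : -2 ≤ a ∧ a ≤ 2 := by omega
  have c3 : -2 ≤ c ∧ c ≤ 2 := by omega
  have d3 : -2 ≤ d ∧ d ≤ 2 := by omega
  obtain ⟨a3, a4⟩ := a3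
  obtain ⟨c3, c4⟩ := c3
  obtain ⟨d3, d4⟩ := d3
  clear h0 h1 h2 h3 k
  interval_cases b <;> interval_cases a <;> interval_cases c <;> interval_cases d <;> omega

theorem top (hR : R.Ok) {v : Fin 4 → ℤ} (hγ : rt e v ∈ R.Φ) (h : 2 ≤ v 1 ∨ 3 ≤ v 0 + v 2 + v 3) :
    v = ![1, 1, 1, 1] ∨ v = ![1, 2, 1, 1] := by
  obtain ⟨h1, h2, h3, h4⟩ := quad' (quad he hR _ hγ v rfl) h
  refine h4.imp (fun h4 => ?_) fun h4 => ?_ <;> funext a <;> fin_cases a <;> simp [h1, h2, h3, h4]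

theorem le_two (hR : R.Ok) {γ : R.Q} (hγ : γ ∈ R.Φ) : γ (e.symm 1) ≤ 2 := by
  by_contra h
  rcases top he hR (rt_eq e γ ▸ hγ) (.inl (by omega)) with c | c <;> have := congrFun c 1 <;>
    simp at this <;> omega

theorem mem_b (hR : R.Ok) : rt e ![1, 1, 1, 1] ∈ R.Φ := by
  have := hR.map_mem (RS.wd_mem_W [e.symm 0, e.symm 2, e.symm 3]) (hR.simple (e.symm 1))
  simp only [RS.wd_cons, RS.wd_nil, RS.mul_app, RS.one_app, rt_α, rt_s he hR] at this
  exact (congrArg (rt e · ∈ R.Φ) (by decide)).mp this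

theorem mem_t (hR : R.Ok) : rt e ![1, 2, 1, 1] ∈ R.Φ := by
  have := hR.map_mem (RS.sE_mem_W (e.symm 1)) (mem_b he hR)
  rw [rt_s he hR] at this
  exact (congrArg (rt e · ∈ R.Φ) (by decide)).mp this

theorem fix_c {f : Fin R.r → Fin R.r} (h : ∀ i j, R.A (f i) (f j) = R.A i j) :
    f (e.symm 1) = e.symm 1 := by
  have k : ∀ a b c d : Fin 4, [CartanMatrix.D 4 b a, CartanMatrix.D 4 b c, CartanMatrix.D 4 b d,
      CartanMatrix.D 4 a c, CartanMatrix.D 4 a d, CartanMatrix.D 4 c d] = [-1, -1, -1, 0, 0, 0] →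
      b = 1 := by decide
  refine e.eq_symm_apply.2 (k (e (f (e.symm 0))) _ (e (f (e.symm 2))) (e (f (e.symm 3))) ?_)
  simp only [← he _ _, h, A_eq he]
  decide

theorem dg_lv {π : Equiv.Perm (Fin R.r)} (h : Dg R π) (i : Fin R.r) : π i ∈ lv e ↔ i ∈ lv e := by
  refine not_congr ?_
  rw [← e.eq_symm_apply, ← e.eq_symm_apply]
  exact ⟨fun c => π.injective (c.trans (fix_c he h).symm), fun c => c ▸ fix_c he h⟩

theorem pm_rt {π : Equiv.Perm (Fin R.r)} (h : Dg R π) (p q : ℤ) :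
    pm π (rt e ![p, q, p, p]) = rt e ![p, q, p, p] := funext fun i => by
  have k : ∀ a : Fin 4, ![p, q, p, p] a = if a = 1 then q else p := fun a => by
    fin_cases a <;> simp
  have := dg_lv he h (π.symm i)
  simp only [lv, Set.mem_setOf_eq, π.apply_symm_apply, not_iff_not, ne_eq] at this
  simp only [pm, rt, k, this]

theorem so_lv (hR : R.Ok) : SO R (lv e) := fun w hw j hj => by
  choose s _ hs using fun j => hR.Lg_α hw (Set.mem_univ j)
  have h : ∀ i j, R.A (s i) (s j) = R.A i j := fun i j => by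
    have := hR.pr_conj (mul_mem (RS.sE_mem_W (s j)) hw.1) (i := j) (j := s j)
      (by rw [RS.mul_app, hs, map_neg, hR.sE_α, neg_neg]) (R.α i)
    rw [RS.mul_app, hs, map_neg, RS.pr_neg, hR.sE_eq, sub_eq_add_neg, RS.pr_add, RS.pr_neg,
      RS.pr_smul, RS.pr_α, RS.pr_α, RS.pr_α, hR.diag] at this
    omega
  rw [hs]
  refine (RS.In_α (show s j ∈ lv e from fun c => hj ?_)).neg
  have h1 := (hs j).trans ((congrArg (-R.α ·) ((e.eq_symm_apply.2 c).trans
    (fix_c he h).symm)).trans (hs _).symm)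
  exact e.eq_symm_apply.1 (RS.α_inj (w.injective h1))

/-- the permutation of the leaves -/
theorem exists_lf {π : Equiv.Perm (Fin R.r)} (h : Dg R π) : ∃ ϖ : Equiv.Perm (Fin 3),
    (∀ i, π (e.symm (lf i)) = e.symm (lf (ϖ i))) ∧ (ϖ * ϖ = 1 → π * π = 1) := by
  have : ∀ i, ∃ j, π (e.symm (lf i)) = e.symm (lf j) := fun i =>
    ((lf_or _).resolve_left ((dg_lv he h _).2 (by simpa [lv] using lf_ne i))).imp fun j c =>
      e.eq_symm_apply.2 c.symm
  choose f hf using this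
  have inj : Function.Injective f := fun i j c =>
    lf_inj (e.symm.injective (π.injective (by rw [hf, hf, c])))
  refine ⟨Equiv.ofBijective f (Finite.injective_iff_bijective.1 inj), hf, fun c =>
    Equiv.ext fun i => ?_⟩
  obtain ⟨a, rfl⟩ := e.symm.surjective i
  rcases lf_or a with rfl | ⟨i, rfl⟩
  · rw [Equiv.Perm.mul_apply, fix_c he h, fix_c he h, Equiv.Perm.one_apply]
  · rw [Equiv.Perm.mul_apply, hf, hf]
    exact congrArg (fun j => e.symm (lf j)) (Equiv.ext_iff.1 c i)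

theorem types {π : Equiv.Perm (Fin R.r)} (h : Dg R π) (h2 : π * π ≠ 1) {J : Set (Fin R.r)}
    (hJ : ∀ i, π i ∈ J ↔ i ∈ J) (h3 : J ≠ Set.univ) : J = lv e ∨ J ⊆ {e.symm 1} := by
  obtain ⟨ϖ, h4, h5⟩ := exists_lf he h
  have k : ∀ ϖ : Equiv.Perm (Fin 3), ϖ * ϖ ≠ 1 → ∀ i j, j = i ∨ j = ϖ i ∨ j = ϖ (ϖ i) := by decide
  have h6 : ∀ i j, e.symm (lf i) ∈ J → e.symm (lf j) ∈ J := fun i j c => by
    rcases k ϖ (mt h5 h2) i j with rfl | rfl | rfl
    · exact c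
    · exact h4 i ▸ (hJ _).2 c
    · exact h4 _ ▸ (hJ _).2 (h4 i ▸ (hJ _).2 c)
  by_cases c : e.symm (lf 0) ∈ J
  · refine .inl (Set.ext fun i => ?_)
    obtain ⟨a, rfl⟩ := e.symm.surjective i
    rcases lf_or a with rfl | ⟨i, rfl⟩
    · refine iff_of_false (fun d => h3 (Set.eq_univ_of_forall fun i => ?_)) (by simp [lv])
      obtain ⟨a, rfl⟩ := e.symm.surjective i
      rcases lf_or a with rfl | ⟨i, rfl⟩
      exacts [d, h6 _ _ c]
    · exact iff_of_true (h6 _ _ c) (by simpa [lv] using lf_ne i)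
  · refine .inr fun i hi => ?_
    obtain ⟨a, rfl⟩ := e.symm.surjective i
    rcases lf_or a with rfl | ⟨i, rfl⟩
    exacts [rfl, absurd (h6 _ _ hi) c]

end Vale.Agent.P011UF
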