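import Vale.Agent.P011UF.Nu
import Vale.Agent.P011UF.D4

/-!
Computations with roots, coroots and matrices of size two.
-/

set_option autoImplicit false
set_option linter.all false

namespace Vale.Agent.P011UF

open Matrix Vale.Agent.P183CH Vale.Agent.P011U Vale.Agent.P011UP Vale.Agent.P011UGM1
open Matrix.SpecialLinearGroup (toGL)

variable {K : Type} [Field K]

theorem exists_diag (x : GL (Fin 2) K) {a b : Kˣ} (hab : (a : K) ≠ b) (h1 : x.1.trace = a + b)
    (h2 : x.1.det = a * b) : ∃ z : S K, x = toGL z * d2 a b * (toGL z)⁻¹ := by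
  rw [trace_fin_two] at h1
  rw [det_fin_two] at h2
  have hab' := sub_ne_zero.2 hab
  suffices ∃ z : S K, x.1 * z.1 = z.1 * (d2 a b).1 from
    this.imp fun z h => eq_mul_inv_of_mul_eq (Units.ext h)
  have key : ∀ p q r s : K, p * s - q * r ≠ 0 → x.1 0 0 * p + x.1 0 1 * r = p * a →
      x.1 1 0 * p + x.1 1 1 * r = r * a → x.1 0 0 * q + x.1 0 1 * s = q * b →
      x.1 1 0 * q + x.1 1 1 * s = s * b → ∃ z : S K, x.1 * z.1 = z.1 * (d2 a b).1 :=
    fun p q r s h e1 e2 e3 e4 => ⟨mk p (q / (p * s - q * r)) r (s / (p * s - q * r)) (by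
      field_simp), Matrix.ext fun i j => by
        fin_cases i <;> fin_cases j <;> simp [mk, d2_val, mul_apply, e1, e2] <;> field_simp
        · linear_combination e3
        · linear_combination e4⟩
  by_cases c : x.1 1 0 = 0
  · by_cases c' : x.1 0 1 = 0
    · have : (x.1 0 0 - a) * (x.1 0 0 - b) = 0 := by
        rw [c'] at h2
        linear_combination x.1 0 0 * h1 - h2
      rcases mul_eq_zero.1 this with e | e
      · refine key 1 0 0 1 (by simp) ?_ ?_ ?_ ?_ <;> simp only [c, c'] <;>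
          first | linear_combination e | linear_combination h1 - e | ring
      · refine key 0 1 1 0 (by simp) ?_ ?_ ?_ ?_ <;> simp only [c, c'] <;>
          first | linear_combination e | linear_combination h1 - e | ring
    · refine key (x.1 0 1) (x.1 0 1) (a - x.1 0 0) (b - x.1 0 0) (fun e => mul_ne_zero c' hab' ?_)
        (by ring) ?_ (by ring) ?_
      · linear_combination -e
      · linear_combination a * h1 - h2
      · linear_combination b * h1 - h2
  · refine key (a - x.1 1 1) (b - x.1 1 1) (x.1 1 0) (x.1 1 0) (fun e => mul_ne_zero c hab' ?_)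
      ?_ (by ring) ?_ (by ring)
    · linear_combination e
    · linear_combination a * h1 - h2
    · linear_combination b * h1 - h2

theorem dg_of_comm {z : S K} {a b : Kˣ} (hab : (a : K) ≠ b)
    (h : toGL z * d2 a b = d2 a b * toGL z) : ∃ t, z = dg t := by
  have h1 := congrArg (fun y : GL (Fin 2) K => y.1 0 1) h
  have h2 := congrArg (fun y : GL (Fin 2) K => y.1 1 0) h
  simp [d2_val, mul_apply, vecMul, dotProduct] at h1 h2
  have h3 : z.1 0 1 = 0 := (mul_eq_zero.1 (show (a - b) * z.1 0 1 = 0 by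
    linear_combination -h1)).resolve_left (sub_ne_zero.2 hab)
  have h4 : z.1 1 0 = 0 := (mul_eq_zero.1 (show (a - b) * z.1 1 0 = 0 by
    linear_combination h2)).resolve_left (sub_ne_zero.2 hab)
  have h5 := z.det
  rw [h3, zero_mul, sub_zero] at h5
  exact ⟨Units.mkOfMulEqOne _ _ h5, S.ext' rfl h3 h4 rfl⟩

theorem ww_d2 (a b : Kˣ) : toGL (ww : S K) * d2 a b = d2 b a * toGL (ww : S K) :=
  Units.ext (show (ww : S K).1 * (d2 a b).1 = (d2 b a).1 * (ww : S K).1 from
    Matrix.ext fun i j => by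
      fin_cases i <;> fin_cases j <;> simp [d2_val, ww, mk, mul_apply])

theorem exists_roots {k : Type} [Field k] [Algebra k K] [IsSepClosed K] {t n : k}
    (h : t ^ 2 ≠ 4 * n) : ∃ a b : K, a ≠ b ∧ a + b = algebraMap k K t ∧ a * b = algebraMap k K n ∧
      ∀ σ : K ≃ₐ[k] K, (σ a = a ∧ σ b = b) ∨ (σ a = b ∧ σ b = a) := by
  obtain ⟨u, hu⟩ : ∃ u, u = algebraMap k K t := ⟨_, rfl⟩
  obtain ⟨v, hv⟩ : ∃ v, v = algebraMap k K n := ⟨_, rfl⟩
  have h1 : u ^ 2 - 4 * v ≠ 0 := by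
    have := (map_ne_zero (algebraMap k K)).2 (sub_ne_zero.2 h)
    rwa [map_sub, map_pow, map_mul, map_ofNat, ← hu, ← hv] at this
  open Polynomial in
  obtain ⟨a, ha⟩ := IsSepClosed.exists_root (X ^ 2 - C u * X + C v : K[X]) (by
    rw [show (X ^ 2 - C u * X + C v : K[X]).degree = 2 by compute_degree!]
    decide) ⟨-C (4 * (u ^ 2 - 4 * v)⁻¹), C (u ^ 2 - 4 * v)⁻¹ * (C 2 * X - C u), by
      have := congrArg (C : K → K[X]) (inv_mul_cancel₀ h1)
      simp only [map_mul, map_sub, map_pow, map_ofNat, map_one] at this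
      simp only [map_mul, map_ofNat, derivative_add, derivative_sub, derivative_X_pow,
        derivative_mul, derivative_C, derivative_X, Nat.cast_ofNat]
      linear_combination this⟩
  simp at ha
  refine ⟨a, u - a, fun e => h1 ?_, by rw [← hu]; ring, by rw [← hv]; linear_combination -ha,
    fun σ => ?_⟩
  · linear_combination (2 * a - u) * e - 4 * ha
  have h2 := congrArg σ ha
  have h3 : σ u = u := hu ▸ σ.commutes t
  rw [map_add, map_sub, map_pow, map_mul, h3, hv, σ.commutes, ← hv, map_zero] at h2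
  rcases mul_eq_zero.1 (show (σ a - a) * (σ a - (u - a)) = 0 by linear_combination h2 - ha) with
    e | e <;> have e := sub_eq_zero.1 e
  · exact .inl ⟨e, by rw [map_sub, h3, e]⟩
  · exact .inr ⟨e, by rw [map_sub, h3, e, sub_sub_cancel]⟩

variable {R : RS} {G : Type} [Group G] {Γ : RG R K G} (hΓ : Γ.Ok) (hR : R.Ok)

variable (Γ) in
/-- `ψ` maps the root group of `γ` to the root group of `δ` -/
def RA (ψ : G → G) (σ : K → K) (γ δ : R.Q) : Prop := ∃ d : K, ∀ u, ψ (Γ.x γ u) = Γ.x δ (d * σ u)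

include hΓ hR

theorem ra_std {ψ : G →* G} {σ : K →+* K} {g : G} {c : Fin R.r → Kˣ} {π : Equiv.Perm (Fin R.r)}
    (h : Std Γ ψ σ g c π) {w : R.Aut} (hw : Γ.Rep g w) {γ : R.Q} (hγ : γ ∈ R.Φ) :
    RA Γ ψ σ γ (w (pm π γ)) := by
  obtain ⟨d, hd⟩ := std_x hΓ h hR γ hγ
  obtain ⟨d', hd'⟩ := hΓ.rep_conj hR hw (pm_mem hR h.1 γ hγ)
  exact ⟨d' * d, fun u => by rw [(hd u).1, (hd' _).1, mul_assoc]⟩

theorem ra_cj {ψ : G → G} {σ : K →+* K} {n : G} {w : R.Aut} (hw : Γ.Rep n w) {γ δ : R.Q}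
    (hγ : γ ∈ R.Φ) (hδ : δ ∈ R.Φ) (h : RA Γ ψ σ (w γ) (w δ)) :
    RA Γ (fun g => n⁻¹ * ψ (n * g * n⁻¹) * n) σ γ δ := by
  obtain ⟨d, hd⟩ := h
  obtain ⟨a, ha⟩ := hΓ.rep_conj hR hw hγ
  obtain ⟨b, hb⟩ := hΓ.rep_conj hR hw hδ
  refine ⟨(b⁻¹ : Kˣ) * d * σ a, fun u => ?_⟩
  have := (hb ((b⁻¹ : Kˣ) * d * σ a * σ u)).1
  simp only [mul_assoc (_ : K), Units.mul_inv_cancel_left] at this ⊢
  rw [(ha u).1, hd, map_mul, ← this]
  group

omit hR in
theorem n_hT (i : Fin R.r) (s : Fin R.r → Kˣ) : Γ.n i * hΓ.hT s * (Γ.n i)⁻¹ =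
    hΓ.hT (s * Pi.mulSingle i (∏ j, s j ^ (-R.A i j))) := by
  induction s using Pi.mulSingle_induction with
  | one => simp
  | mul a b ha hb =>
    rw [map_mul, ← conj_mul, ha, hb, ← map_mul, mul_mul_mul_comm, ← Pi.mulSingle_mul]
    simp only [Pi.mul_apply, mul_zpow, Finset.prod_mul_distrib]
  | mulSingle j t =>
    rw [map_mul, hΓ.hT_single, hΓ.hT_single, hΓ.nh, Finset.prod_eq_single j
      (fun a _ e => by simp [e]) (by simp), Pi.mulSingle_eq_same]

variable {e : Fin R.r ≃ Fin 4} (he : Ty R (CartanMatrix.D 4) e)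
include he

omit hR in
theorem n_tt (b : Fin 4) (v : Fin 4 → Kˣ) :
    Γ.n (e.symm b) * hΓ.hT (fun i => v (e i)) * (Γ.n (e.symm b))⁻¹ = hΓ.hT fun i =>
      (v * Pi.mulSingle b (∏ a, v a ^ (-CartanMatrix.D 4 b a)) : Fin 4 → Kˣ) (e i) := by
  rw [n_hT, ← e.symm.prod_comp]
  refine congrArg _ (funext fun i => ?_)
  simp [A_eq he, Pi.mulSingle_apply, Equiv.eq_symm_apply]

omit hR in
theorem nd_tt (s t : Kˣ) : Γ.nd [e.symm 0, e.symm 1, e.symm 2, e.symm 3] *
    hΓ.hT (fun i => ![s, t, 1, 1] (e i)) * (Γ.nd [e.symm 0, e.symm 1, e.symm 2, e.symm 3])⁻¹ =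
      hΓ.hT fun i => ![t, t * s, t, t] (e i) := by
  have h3 := n_tt hΓ he 3 ![s, t, 1, 1]
  have h2 := n_tt hΓ he 2 ![s, t, 1, t]
  have h1 := n_tt hΓ he 1 ![s, t, t, t]
  have h0 := n_tt hΓ he 0 ![s, t * s, t, t]
  rw [show (![s, t, 1, 1] * _ : Fin 4 → Kˣ) = ![s, t, 1, t] from funext fun a => by
    fin_cases a <;> simp [CartanMatrix.D_four, Fin.prod_univ_four]] at h3
  rw [show (![s, t, 1, t] * _ : Fin 4 → Kˣ) = ![s, t, t, t] from funext fun a => by
    fin_cases a <;> simp [CartanMatrix.D_four, Fin.prod_univ_four]] at h2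
  rw [show (![s, t, t, t] * _ : Fin 4 → Kˣ) = ![s, t * s, t, t] from funext fun a => by
    fin_cases a <;> simp [CartanMatrix.D_four, Fin.prod_univ_four, zpow_two, mul_assoc]
    exact Units.ext (by simp; field_simp)] at h1
  rw [show (![s, t * s, t, t] * _ : Fin 4 → Kˣ) = ![t, t * s, t, t] from funext fun a => by
    fin_cases a <;> simp [CartanMatrix.D_four, Fin.prod_univ_four, zpow_two, mul_assoc,
      mul_comm t s]
    exact Units.ext (by simp; field_simp)] at h0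
  rw [← h0, ← h1, ← h2, ← h3]
  simp only [RG.nd_cons, show Γ.nd [] = 1 from rfl]
  group

omit hΓ in
theorem s_rt (a b c d : ℤ) : R.sE (e.symm 0) (rt e ![a, b, c, d]) = rt e ![b - a, b, c, d] ∧
    R.sE (e.symm 1) (rt e ![a, b, c, d]) = rt e ![a, a + c + d - b, c, d] ∧
    R.sE (e.symm 2) (rt e ![a, b, c, d]) = rt e ![a, b, b - c, d] ∧
    R.sE (e.symm 3) (rt e ![a, b, c, d]) = rt e ![a, b, c, b - d] := by
  refine ⟨?_, ?_, ?_, ?_⟩ <;> rw [rt_s he hR] <;> refine congrArg _ (funext fun i => ?_) <;>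
    fin_cases i <;> simp [p4] <;> ring

omit hΓ in
theorem w1_rt (p q : ℤ) : R.wd [e.symm 0, e.symm 1, e.symm 2, e.symm 3] (rt e ![p, q, 0, 0]) =
    rt e ![q, p + q, q, q] := by
  simp only [RS.wd_cons, RS.wd_nil, RS.mul_app, RS.one_app]
  rw [(s_rt hR he ..).2.2.2, (s_rt hR he ..).2.2.1, (s_rt hR he ..).2.1, (s_rt hR he ..).1]
  refine congrArg _ (funext fun a => ?_)
  fin_cases a <;> simp <;> ring

omit hΓ in
theorem w0_rt (p q : ℤ) : (R.sE (e.symm 0) * R.sE (e.symm 2) * R.sE (e.symm 3))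
    (rt e ![p, q, p, p]) = rt e ![q - p, q, q - p, q - p] := by
  simp only [RS.mul_app]
  rw [(s_rt hR he ..).2.2.2, (s_rt hR he ..).2.2.1, (s_rt hR he ..).1]

omit hΓ hR in
theorem star4 : Star R (lv e) (e.symm 1) where
  og i hi j hj ne := by
    have k : ∀ a b : Fin 4, a = 1 ∨ b = 1 ∨ a = b ∨ CartanMatrix.D 4 a b = 0 := fun a b => by
      fin_cases a <;> fin_cases b <;> decide
    exact (he i j).trans ((((k _ _).resolve_left hi).resolve_left hj).resolve_left
      fun c => ne (e.injective c))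
  iff j := by simp [lv, Equiv.eq_symm_apply]
  adj j hj := by
    have k : ∀ a : Fin 4, a ≠ 1 → CartanMatrix.D 4 a 1 = -1 := by decide
    rw [he, e.apply_symm_apply, k _ hj]
  ne := ⟨e.symm 0, by simp [lv]⟩

theorem PH_lv (z : Fin R.r → S K) : PH hΓ hR (star4 he).og z = phi hΓ hR (e.symm 0) (z (e.symm 0)) *
    phi hΓ hR (e.symm 2) (z (e.symm 2)) * phi hΓ hR (e.symm 3) (z (e.symm 3)) := by
  rw [← PH_in hΓ hR (star4 he).og (by simp [lv]), ← PH_in hΓ hR (star4 he).og (by simp [lv]),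
    ← PH_in hΓ hR (star4 he).og (by simp [lv]), ← map_mul, ← map_mul]
  refine PH_congr hΓ hR _ fun j hj => ?_
  obtain ⟨a, rfl⟩ := e.symm.surjective j
  fin_cases a <;> simp [lv, Pi.mulSingle_apply] at hj ⊢

omit hΓ hR in
theorem pw_rt (u v : Fin 4 → ℤ) : pw (rt e u) (rt e v) = ∑ a, p4 v a * u a := by
  rw [pw, ← e.symm.sum_comp]
  simp only [rt_pr he]
  simp [rt]

omit hΓ hR in
theorem dom_lv : Dom (rt e ![1, 2, 1, 1]) (lv e) := by
  refine ⟨fun i hi => ?_, fun i hi => ?_⟩ <;> obtain ⟨a, rfl⟩ := e.symm.surjective i <;>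
    rw [rt_α, pw_rt he] <;> fin_cases a <;> simp [lv] at hi ⊢ <;> decide

end Vale.Agent.P011UF
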