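import Vale.Agent.P011UF.An
import Vale.Agent.P011UF.Rk

/-!
Regular semisimple elements of the Levi subgroup of the leaves.
-/

set_option autoImplicit false
set_option linter.all false

namespace Vale.Agent.P011UF

open Matrix Vale.Agent.P011L Vale.Agent.P183CH Vale.Agent.P011U Vale.Agent.P011UP
  Vale.Agent.P011UGM1 Vale.Agent.P011UTS Vale.Agent.P183CH.Chev
open Matrix.SpecialLinearGroup (toGL)

section

variable {K : Type} [Field K] {R : RS} {G : Type} [Group G] {Γ : RG R K G} (hΓ : Γ.Ok) (hR : R.Ok)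
include hΓ hR

theorem st_of_ra {ψ : G →* G} {σ : K → K} {J : Set (Fin R.r)}
    (h : ∀ j ∈ J, ∀ γ, γ = R.α j ∨ γ = -R.α j → ∃ δ ∈ R.Φ, R.In J δ ∧ RA Γ ψ σ γ δ) {g : G}
    (hg : g ∈ LJ Γ J) : ψ g ∈ LJ Γ J := by
  rw [LJ_eq hR hΓ] at hg
  refine (Subgroup.closure_le ((LJ Γ J).comap ψ)).2 ?_ hg
  rintro _ ⟨j, hj, t, rfl | rfl⟩
  · obtain ⟨δ, h1, h2, d, h3⟩ := h j hj _ (.inl rfl)
    exact (show ψ _ ∈ _ from h3 t ▸ RG.x_mem h1 h2 _)
  · obtain ⟨δ, h1, h2, d, h3⟩ := h j hj _ (.inr rfl)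
    exact (show ψ _ ∈ _ from h3 t ▸ RG.x_mem h1 h2 _)

variable {e : Fin R.r ≃ Fin 4} (he : Ty R (CartanMatrix.D 4) e)
include he

theorem rl_tt (a b : Kˣ) : (fun _ : lv e => d2 a b, hΓ.hT fun i => ![a, a * b, a, a] (e i)) ∈
    RL hΓ hR (star4 he) := rl_d2 hΓ hR _ a b (fun j hj => by
  obtain ⟨i, rfl⟩ := e.symm.surjective j
  fin_cases i <;> simp [lv] at hj ⊢) (by simp)

theorem rep_of (inj : Function.Injective hΓ.hT) {ψ : G →* G} {σ : K →+* K} {z : Fin R.r → S K}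
    {c : Fin R.r → Kˣ} {π : Equiv.Perm (Fin R.r)}
    (h : Std Γ ψ σ (PH hΓ hR (star4 he).og z) c π) {a b : Kˣ} (hab : (a : K) ≠ b)
    (hs : (σ a = a ∧ σ b = b) ∨ (σ a = b ∧ σ b = a))
    (hf : ψ (hΓ.hT fun i => ![a, a * b, a, a] (e i)) = hΓ.hT fun i => ![a, a * b, a, a] (e i)) :
    Γ.Rep (PH hΓ hR (star4 he).og z) 1 ∨ Γ.Rep (PH hΓ hR (star4 he).og z)
      (R.sE (e.symm 0) * R.sE (e.symm 2) * R.sE (e.symm 3)) := by
  have h1 := rl_act hΓ hR _ h (dg_lv he h.1) (rl_tt hΓ hR he a b)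
  rw [hf] at h1
  have h2 : ∀ i ∈ lv e, toGL (z i) * d2 (Units.map (σ : K →* K) a) (Units.map (σ : K →* K) b) =
      d2 a b * toGL (z i) := fun i hi => by
    rw [← congrFun (rl_inj hΓ hR _ inj h1 (rl_tt hΓ hR he a b)) ⟨i, hi⟩]
    simp only [bG, gm_d2, _root_.mul_inv_rev, mul_assoc, inv_mul_cancel, mul_one, d2_inv, d2_mul,
      inv_one, one_mul, mul_comm (Units.map _ a), mul_inv_cancel_left]
  have m : ∀ i : Fin 4, i ≠ 1 → e.symm i ∈ lv e := fun i hi => by simpa [lv] using hi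
  rw [PH_lv hΓ hR he]
  rcases hs with ⟨s1, s2⟩ | ⟨s1, s2⟩
  · have : ∀ i : Fin 4, i ≠ 1 → Γ.Rep (phi hΓ hR (e.symm i) (z (e.symm i))) 1 := fun i hi => by
      have h3 := h2 _ (m i hi)
      rw [show Units.map (σ : K →* K) a = a from Units.ext s1,
        show Units.map (σ : K →* K) b = b from Units.ext s2] at h3
      obtain ⟨t, ht⟩ := dg_of_comm hab h3
      rw [ht, phi_dg]
      exact RG.rep_T (RG.h_mem _ _)
    exact .inl (by
      simpa using ((this 0 (by decide)).mul (this 2 (by decide))).mul (this 3 (by decide)))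
  · have : ∀ i : Fin 4, i ≠ 1 →
        Γ.Rep (phi hΓ hR (e.symm i) (z (e.symm i))) (R.sE (e.symm i)) := fun i hi => by
      have h3 := h2 _ (m i hi)
      rw [show Units.map (σ : K →* K) a = b from Units.ext s1,
        show Units.map (σ : K →* K) b = a from Units.ext s2] at h3
      obtain ⟨t, ht⟩ := dg_of_comm (z := z (e.symm i) * ww⁻¹) hab (by
        rw [map_mul, map_inv, ← mul_assoc, ← h3, mul_assoc, mul_assoc,
          eq_mul_inv_of_mul_eq (ww_d2 b a).symm, mul_assoc (toGL ww), inv_mul_cancel_left])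
      rw [eq_mul_of_mul_inv_eq ht, map_mul, phi_dg, phi_ww]
      exact (RG.rep_n _).T_mul (RG.h_mem _ _)
    exact .inr (((this 0 (by decide)).mul (this 2 (by decide))).mul (this 3 (by decide)))

theorem ra_two {ψ : G →* G} {σ : K →+* K} {g : G} {c : Fin R.r → Kˣ} {π : Equiv.Perm (Fin R.r)}
    (h : Std Γ ψ σ g c π)
    (hg : Γ.Rep g 1 ∨ Γ.Rep g (R.sE (e.symm 0) * R.sE (e.symm 2) * R.sE (e.symm 3))) {n : G}
    (hn : n = Γ.nd [e.symm 0, e.symm 1, e.symm 2, e.symm 3]) {x y : ℤ}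
    (h1 : rt e ![x, y, 0, 0] ∈ R.Φ) (h2 : rt e ![y, x, 0, 0] ∈ R.Φ) :
    RA Γ (fun g => n⁻¹ * ψ (n * g * n⁻¹) * n) σ (rt e ![x, y, 0, 0]) (rt e ![x, y, 0, 0]) ∨
      RA Γ (fun g => n⁻¹ * ψ (n * g * n⁻¹) * n) σ (rt e ![x, y, 0, 0]) (rt e ![y, x, 0, 0]) := by
  subst hn
  have h3 := hR.map_mem (RS.wd_mem_W [e.symm 0, e.symm 1, e.symm 2, e.symm 3]) h1
  refine hg.imp (fun r => ra_cj hΓ hR (RG.rep_nd _) h1 h1 ?_)
    fun r => ra_cj hΓ hR (RG.rep_nd _) h1 h2 ?_ <;> have h4 := ra_std hΓ hR h r h3 <;>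
    rw [w1_rt hR he, pm_rt he h.1] at h4
  · rwa [w1_rt hR he]
  · rw [w0_rt hR he, add_sub_cancel_right] at h4
    rwa [w1_rt hR he, w1_rt hR he, add_comm y x]

end

variable {k K : Type} [Field k] [Field K] [Algebra k K] [IsSepClosure k K] {D : Chev}
  {T : Tw k (D.grp K)}

theorem fixroot {γ : D.R.Q} (hγ : γ ∈ D.R.Φ) (h : ∀ σ, RA (GG D K) (T.a σ) σ γ γ) :
    ∃ u : K, u ≠ 0 ∧ (GG D K).x γ u ∈ T.fix := by
  choose d hd using h
  have inj := (GG_ok (D := D) (k := K)).x_inj (R_ok D) hγ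
  obtain ⟨b, h1, h2⟩ := P011LD.h90_one (Γ := ⊤) d (fun σ _ τ _ => inj (by
      have := hd (σ * τ) 1
      rw [map_mul, MulAut.mul_apply, hd, hd] at this
      simpa using this.symm))
    ((tw_sm T ((GG D K).x γ 1)).imp fun σ _ e => inj (by simpa using (hd σ 1).symm.trans e))
  exact ⟨b, h1, fun σ => by rw [hd, h2 σ trivial]⟩

theorem fix_cj {y g : D.grp K} : g ∈ (cj T y).fix ↔ y * g * y⁻¹ ∈ T.fix :=
  forall_congr' fun σ => by
    rw [cj_a, mul_assoc, inv_mul_eq_iff_eq_mul, ← eq_mul_inv_iff_mul_eq]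

theorem nm_cj {N : Subgroup (D.grp K)} (hN : ∀ g ∈ T.fix, ∀ x ∈ N, g * x * g⁻¹ ∈ N) (y : D.grp K) :
    ∀ g ∈ (cj T y).fix, ∀ x ∈ N.comap (MulAut.conj y).toMonoidHom,
      g * x * g⁻¹ ∈ N.comap (MulAut.conj y).toMonoidHom := fun g hg x hx => by
  have := hN _ (fix_cj.1 hg) _ hx
  rw [Subgroup.mem_comap, map_mul, map_mul, map_inv]
  exact this

variable (T) in
/-- The action is standard up to the Levi subgroup. -/
def PL (J : Set (Fin D.R.r)) : Prop :=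
  ∀ σ, ∃ g ∈ LJ (GG D K) J, ∃ c π, Std (GG D K) (T.a σ) σ g c π

variable (ia : IA) (hk : Glob k) (hD : SC D) {e : Fin D.R.r ≃ Fin 4}
  (he : Ty D.R (CartanMatrix.D 4) e) (hT : PL T (lv e)) {N : Subgroup (D.grp K)}
  (hN : ∀ g ∈ T.fix, ∀ x ∈ N, g * x * g⁻¹ ∈ N)
  (hU : ∀ g ∈ T.fix, g ∈ UP (GG D K) (lv e) → g ∈ N)
include ia hk hD he hT hN hU

theorem tool0 {a b : Kˣ} (hab : (a : K) ≠ b)
    (hs : ∀ σ : K ≃ₐ[k] K, (σ a = a ∧ σ b = b) ∨ (σ a = b ∧ σ b = a))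
    (hf : (GG_ok.hT fun i => ![a, a * b, a, a] (e i)) ∈ T.fix) :
    (GG_ok.hT fun i => ![a, a * b, a, a] (e i)) ∈ N := by
  haveI := Glob.inf hk
  haveI := Infinite.of_injective _ (algebraMap k K).injective
  have hR := R_ok D
  obtain ⟨n, hn⟩ : ∃ n, n = (GG D K).nd [e.symm 0, e.symm 1, e.symm 2, e.symm 3] := ⟨_, rfl⟩
  have key : ∀ (σ : K ≃ₐ[k] K) (x y : ℤ), rt e ![x, y, 0, 0] ∈ D.R.Φ → rt e ![y, x, 0, 0] ∈ D.R.Φ →
      RA (GG D K) ((cj T n).a σ) σ (rt e ![x, y, 0, 0]) (rt e ![x, y, 0, 0]) ∨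
        RA (GG D K) ((cj T n).a σ) σ (rt e ![x, y, 0, 0]) (rt e ![y, x, 0, 0]) := by
    intro σ x y h1 h2
    obtain ⟨g, hg, c, π, h⟩ := hT σ
    obtain ⟨z, rfl⟩ := PH_surj GG_ok hR (star4 he).og hg
    rw [show ⇑((cj T n).a σ) = _ from funext (cj_a T n σ)]
    exact ra_two GG_ok hR he (ψ := (T.a σ).toMonoidHom) (σ := (σ : K →+* K)) h
      (rep_of GG_ok hR he hD.hT_inj (ψ := (T.a σ).toMonoidHom) (σ := (σ : K →+* K)) h hab (hs σ)
        (hf σ)) hn h1 h2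
  let ι : Fin 2 ↪ Fin D.R.r := (Fin.castLEEmb (by decide : 2 ≤ 4)).trans e.symm.toEmbedding
  have i0 : e.symm 0 ∈ Set.range ι := ⟨0, rfl⟩
  have i1 : e.symm 1 ∈ Set.range ι := ⟨1, rfl⟩
  have hI : ∀ x y : ℤ, D.R.In (Set.range ι) (rt e ![x, y, 0, 0]) := fun x y i hi => by
    obtain ⟨j, rfl⟩ := e.symm.surjective i
    fin_cases j
    exacts [absurd i0 hi, absurd i1 hi, by simp [rt], by simp [rt]]
  have a0 : D.R.α (e.symm 0) = rt e ![1, 0, 0, 0] := (rt_α e 0).trans (congrArg _ (by decide))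
  have a1 : D.R.α (e.symm 1) = rt e ![0, 1, 0, 0] := (rt_α e 1).trans (congrArg _ (by decide))
  have b0 : -D.R.α (e.symm 0) = rt e ![-1, 0, 0, 0] := by
    rw [a0, rt_neg]
    exact congrArg _ (by decide)
  have b1 : -D.R.α (e.symm 1) = rt e ![0, -1, 0, 0] := by
    rw [a1, rt_neg]
    exact congrArg _ (by decide)
  have p0 := a0 ▸ hR.simple _
  have p1 := a1 ▸ hR.simple _
  have q0 := b0 ▸ hR.neg_mem (hR.simple _)
  have q1 := b1 ▸ hR.neg_mem (hR.simple _)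
  have hS : ∀ σ, ∀ g ∈ LJ (GG D K) (Set.range ι), (cj T n).a σ g ∈ LJ (GG D K) (Set.range ι) := by
    refine fun σ g => st_of_ra GG_ok hR (ψ := ((cj T n).a σ).toMonoidHom) (σ := σ) ?_
    have k : ∀ x y : ℤ, rt e ![x, y, 0, 0] ∈ D.R.Φ → rt e ![y, x, 0, 0] ∈ D.R.Φ → ∃ δ ∈ D.R.Φ,
        D.R.In (Set.range ι) δ ∧ RA (GG D K) ((cj T n).a σ) σ (rt e ![x, y, 0, 0]) δ :=
      fun x y h1 h2 => (key σ x y h1 h2).elim (fun r => ⟨_, h1, hI _ _, r⟩) fun r => ⟨_, h2, hI _ _, r⟩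
    rintro _ ⟨j, rfl⟩ _ (rfl | rfl) <;> fin_cases j
    exacts [a0.symm ▸ k _ _ p0 p1, a1.symm ▸ k _ _ p1 p0, b0.symm ▸ k _ _ q0 q1,
      b1.symm ▸ k _ _ q1 q0]
  have hL : ∀ s t : Kˣ, (GG_ok.hT fun i => ![s, t, 1, 1] (e i)) ∈ LJ (GG D K) (Set.range ι) := by
    intro s t
    rw [show (fun i => ![s, t, 1, 1] (e i)) = Pi.mulSingle (e.symm 0) s * Pi.mulSingle (e.symm 1) t
      from funext fun i => by
        obtain ⟨j, rfl⟩ := e.symm.surjective i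
        fin_cases j <;> simp [Pi.mulSingle_apply], map_mul, GG_ok.hT_single, GG_ok.hT_single,
      ← phi_dg GG_ok hR, ← phi_dg GG_ok hR]
    exact mul_mem (phi_mem GG_ok hR i0 _) (phi_mem GG_ok hR i1 _)
  have c1 : ∀ t : Kˣ, co (GG_ok (D := D)) (rt e ![1, 1, 0, 0]) t =
      GG_ok.hT fun i => ![t, t, 1, 1] (e i) := fun t => by
    rw [co_eq]
    refine congrArg _ (funext fun i => ?_)
    obtain ⟨j, rfl⟩ := e.symm.surjective i
    fin_cases j <;> simp [rt]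
  have c2 : ∀ t : Kˣ, n * co GG_ok (rt e ![1, 1, 0, 0]) t * n⁻¹ =
      co GG_ok (rt e ![1, 2, 1, 1]) t := fun t => by
    rw [c1, hn, nd_tt GG_ok he, co_eq]
    refine congrArg _ (funext fun i => ?_)
    obtain ⟨j, rfl⟩ := e.symm.surjective i
    fin_cases j <;> simp [rt, zpow_two, pow_two]
  have c3 : ∀ σ t, (cj T n).a σ (co GG_ok (rt e ![1, 1, 0, 0]) t) =
      co GG_ok (rt e ![1, 1, 0, 0]) (Units.map (σ : K →* K) t) := fun σ t => by
    obtain ⟨g, hg, c, π, h⟩ := hT σ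
    rw [cj_a, c2, std_co GG_ok h fun i => by
        simpa [pm] using (congrFun (pm_rt he h.1 1 2) (π i)).symm,
      mul_inv_eq_iff_eq_mul.2 (mul_inv_eq_iff_eq_mul.1
        (co_GJ GG_ok (dom_lv he) (Subgroup.mem_sup_left hg) _)).symm, ← c2]
    group
  have hγ : rt e ![1, 1, 0, 0] ∈ D.R.Φ := by
    simpa [(s_rt hR he ..).1] using hR.map_mem (RS.sE_mem_W (e.symm 0)) p1
  have h0 : pw (rt e ![1, 1, 0, 0]) (rt e ![1, 1, 0, 0]) ≠ 0 := by
    rw [pw_rt he]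
    decide
  have ps := an ia hk hD two_pos ι (fun i j => (A_eq he _ _).trans (by
    fin_cases i <;> fin_cases j <;> decide)) hS
    (not_ani' hS hγ h0 1 (fun t => by simpa [c1] using hL t t) fun σ t => by simpa using c3 σ t)
  obtain ⟨u, u0, u1⟩ := fixroot hγ fun σ => (key σ 1 1 hγ hγ).elim id id
  obtain ⟨t, ht⟩ := exists_gen (K := k) (rt e ![1, 1, 0, 0])
  have u2 : n * (GG D K).x (rt e ![1, 1, 0, 0]) u * n⁻¹ ∈ N := hU _ (fix_cj.1 u1) (by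
    obtain ⟨d, hd⟩ := (GG_ok (D := D) (k := K)).rep_conj hR (RG.rep_nd _) hγ
    rw [hn, (hd u).1, w1_rt hR he]
    exact RG.x_mem (S := {γ | 0 ≤ γ ∧ ¬D.R.In (lv e) γ}) (mem_t he hR)
      ⟨rt_nonneg e fun a => by fin_cases a <;> decide, rt_not_In e (by decide)⟩ _)
  rw [← nd_tt GG_ok he, ← hn] at hf ⊢
  refine of_ps hS ps (N.comap (MulAut.conj n).toMonoidHom) (fun g h1 _ => nm_cj hN n g h1) u2 u1
    (RG.x_mem hγ (hI _ _) u)
    (b := co GG_ok (rt e ![1, 1, 0, 0]) (Units.map (algebraMap k K).toMonoidHom t))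
    (fun σ => (c3 σ _).trans (congrArg _ (Units.ext (σ.commutes t)))) (c1 _ ▸ hL _ _)
    (fun c => ht _ hγ h0 ?_) (fix_cj.2 hf) (hL _ _)
  have h3 := co_x (GG_ok (D := D) (k := K)) (m := rt e ![1, 1, 0, 0]) hγ
    (Units.map (algebraMap k K).toMonoidHom t) u
  rw [← c, mul_inv_cancel_right] at h3
  refine Units.map_injective (f := (algebraMap k K).toMonoidHom) (algebraMap k K).injective ?_
  rw [map_zpow, map_one]
  exact Units.ext (mul_right_cancel₀ u0 ((GG_ok.x_inj hR hγ h3).symm.trans (one_mul u).symm))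

theorem tool1 {x : lv e → GL (Fin 2) K} {g : D.grp K} (h : (x, g) ∈ RL GG_ok (R_ok D) (star4 he))
    (hg : g ∈ T.fix) {t n : k} (h1 : t ^ 2 ≠ 4 * n) (h2 : ∀ i, (x i).1.trace = algebraMap k K t ∧
      (x i).1.det = algebraMap k K n) : g ∈ N := by
  classical
  have hR := R_ok D
  haveI := IsSepClosure.sep_closed k (K := K)
  obtain ⟨a, b, hab, e1, e2, hs⟩ := exists_roots (K := K) h1
  obtain ⟨i, hi⟩ := (star4 he).ne
  have h3 : a * b ≠ 0 := by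
    rw [e2, ← (h2 ⟨i, hi⟩).2]
    exact (GeneralLinearGroup.det (x ⟨i, hi⟩)).ne_zero
  obtain ⟨a, rfl⟩ := (left_ne_zero_of_mul h3).isUnit
  obtain ⟨b, rfl⟩ := (right_ne_zero_of_mul h3).isUnit
  have : ∀ j, ∃ z : S K, ∀ c : j ∈ lv e, x ⟨j, c⟩ = toGL z * d2 a b * (toGL z)⁻¹ := fun j => by
    by_cases c : j ∈ lv e
    · exact (exists_diag (x ⟨j, c⟩) hab ((h2 _).1.trans e1.symm) ((h2 _).2.trans e2.symm)).imp
        fun z hz _ => hz
    · exact ⟨1, fun d => absurd d c⟩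
  choose z hz using this
  have h4 := mul_mem (mul_mem (rl_PH GG_ok hR (star4 he) z) (rl_tt GG_ok hR he a b))
    (inv_mem (rl_PH (GG_ok (D := D) (k := K)) hR (star4 he) z))
  have h5 := PH_LJ (GG_ok (D := D) (k := K)) hR (star4 he).og z
  generalize PH GG_ok hR (star4 he).og z = y at h4 h5
  rw [Prod.inv_mk, Prod.mk_mul_mk, Prod.mk_mul_mk] at h4
  obtain rfl := rl_fun GG_ok hR _ ((show x = _ from funext fun j => hz j j.2) ▸ h) h4
  refine tool0 ia hk hD he (T := cj T y) (N := N.comap (MulAut.conj y).toMonoidHom) (fun σ => ?_)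
    (nm_cj hN y) (fun u u1 u2 => hU _ (fix_cj.1 u1)
      (nm_UP GG_ok hR y (GJ_le_PJ (Subgroup.mem_sup_left h5)) u u2)) hab hs (fix_cj.2 hg)
  obtain ⟨g, hg, c, π, h⟩ := hT σ
  refine ⟨y⁻¹ * (g * (g⁻¹ * T.a σ y * g)), mul_mem (inv_mem h5) (mul_mem hg
    (std_X GG_ok h hR (fun γ r _ => pm_In (dg_lv he h.1) r) h5)), c, π, h.1, fun j u => ?_⟩
  simp only [cj_a, map_mul, map_inv, (h.2 j u).1, (h.2 j u).2]
  exact ⟨by group, by group⟩

end Vale.Agent.P011UF
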