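import Vale.Agent.P011UC.Tr
import Vale.Agent.P011UP.Lev
import Vale.Agent.P011US.Sub
import Vale.Agent.P011UI.Exa
import Vale.Agent.P011U.Top

/-!
Stable Levi subgroups of type `A`.
-/

set_option autoImplicit false
set_option linter.all false

namespace Vale.Agent.P011UF

open Matrix Vale.Agent.P011L Vale.Agent.P183CH Vale.Agent.P011U Vale.Agent.P011UP

variable {k K : Type} [Field k] [Field K] [Algebra k K]

section

variable {n : Type} [Fintype n] [DecidableEq n] {H : Subgroup (GL n K)} (T : Tw k H)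
  (S : Subgroup H) (hS : ∀ σ, ∀ g ∈ S, T.a σ g ∈ S)

/-- the embedding of the image of a subgroup -/
def up (S : Subgroup H) : S.map H.subtype →* H := Subgroup.inclusion (Subgroup.map_subtype_le S)

theorem up_mem (g : S.map H.subtype) : up S g ∈ S := by
  obtain ⟨_, x, hx, rfl⟩ := g
  exact hx

theorem up_inj : Function.Injective (up S) := Subgroup.inclusion_injective _

/-- the restriction of the action to a stable subgroup -/
def rst : Tw k (S.map H.subtype) where
  a :=
    { toFun := fun σ =>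
        { toFun := fun g => ⟨(T.a σ (up S g)).1, _, hS σ _ (up_mem S g), rfl⟩
          invFun := fun g => ⟨(T.a σ⁻¹ (up S g)).1, _, hS _ _ (up_mem S g), rfl⟩
          left_inv := fun g => up_inj S (by
            show T.a σ⁻¹ (T.a σ (up S g)) = _
            rw [map_inv, MulAut.inv_apply_self])
          right_inv := fun g => up_inj S (by
            show T.a σ (T.a σ⁻¹ (up S g)) = _
            rw [map_inv, MulAut.apply_inv_self])
          map_mul' := fun a b => up_inj S (by
            show T.a σ (up S (a * b)) = T.a σ (up S a) * T.a σ (up S b)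
            rw [map_mul, map_mul]) }
      map_one' := MulEquiv.ext fun g => up_inj S (by
        show T.a 1 (up S g) = _
        rw [map_one]
        rfl)
      map_mul' := fun σ τ => MulEquiv.ext fun g => up_inj S (by
        show T.a (σ * τ) (up S g) = T.a σ (T.a τ (up S g))
        rw [map_mul]
        rfl) }
  pol σ i j := (T.pol σ i j).imp fun p hp g => hp (up S g)
  cont := T.cont.imp fun F h => ⟨h.1, fun σ e g => h.2 σ e (up S g)⟩

theorem rst_a (σ : K ≃ₐ[k] K) (g : S.map H.subtype) :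
    up S ((rst T S hS).a σ g) = T.a σ (up S g) := rfl

end

theorem connA {m : ℕ} (P : Fin m → Prop) (i j : Fin m) (h : P i)
    (h1 : ∀ i j, P i → CartanMatrix.A m j i ≠ 0 → P j) : P j := by
  have a : ∀ d (x y : Fin m), x.1 + d = y.1 → (P x ↔ P y) := fun d => by
    induction d with
    | zero => exact fun x y e => by rw [show x = y from Fin.ext e]
    | succ d ih =>
      intro x y e
      have b : x.1 + d < m := by have := y.2; omega
      refine (ih x ⟨x.1 + d, b⟩ rfl).trans ⟨fun c => h1 _ _ c ?_, fun c => h1 _ _ c ?_⟩ <;>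
        simp only [CartanMatrix.A, of_apply, Fin.ext_iff] <;> split_ifs <;> omega
  rcases le_total i.1 j.1 with e | e
  · exact (a (j.1 - i.1) i j (by omega)).1 h
  · exact (a (i.1 - j.1) j i (by omega)).2 h

variable {D : Chev}

/-- The derived groups of the Levi subgroups of type `A` are special linear groups. -/
theorem levA (hD : SC D) (K : Type) [Field K] {m : ℕ} (hm : 0 < m) (ι : Fin m ↪ Fin D.R.r)
    (hA : ∀ i j, D.R.A (ι i) (ι j) = CartanMatrix.A m i j) :
    ∃ ψ : (LJ (GG D K) (Set.range ι)).map (D.grp K).subtype ≃* SA K (m + 1),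
      Pol ψ ∧ Pol ψ.symm ∧ ∀ i u g,
        (up _ g = (GG D K).x (D.R.α (ι i)) u → (ψ g).1.1 = 1 + single i.castSucc i.succ u) ∧
        (up _ g = (GG D K).x (-D.R.α (ι i)) u → (ψ g).1.1 = 1 + single i.succ i.castSucc u) := by
  obtain ⟨D', e, h1, h2, h3⟩ := sub D hD m ι hm fun P i j h h1 =>
    connA P i j h fun i j a b => h1 i j a (hA j i ▸ b)
  obtain ⟨φ, p1, p2, h4⟩ := h3 K
  obtain ⟨ψ, q1, q2, h5⟩ := P011UI.isa D' h1 m e (fun i j => (h2 i j).trans (hA _ _)) K
  refine ⟨φ.symm.trans ψ, P011UC.pol_trans p2 q1,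
    P011UC.pol_trans (φ := ψ.symm) (ψ := φ) q2 p1, fun i u g => ?_⟩
  obtain ⟨i, rfl⟩ := e.surjective i
  refine ⟨fun h => ?_, fun h => ?_⟩
  · obtain rfl : g = φ ((GG D' K).x (D'.R.α i) u) :=
      Subtype.ext ((congrArg Subtype.val h).trans (h4 i u).1.symm)
    rw [MulEquiv.trans_apply, φ.symm_apply_apply, (h5 i u).1]
  · obtain rfl : g = φ ((GG D' K).x (-D'.R.α i) u) :=
      Subtype.ext ((congrArg Subtype.val h).trans (h4 i u).2.symm)
    rw [MulEquiv.trans_apply, φ.symm_apply_apply, (h5 i u).2]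

/-- An equivariant cocharacter in a stable subgroup. -/
theorem not_ani' [Infinite K] {T : Tw k (D.grp K)} {S : Subgroup (D.grp K)}
    (hS : ∀ σ, ∀ g ∈ S, T.a σ g ∈ S) {m : Fin D.R.r → ℤ} {γ : D.R.Q} (hγ : γ ∈ D.R.Φ)
    (h0 : pw m γ ≠ 0) (y : D.grp K) (hy : ∀ t, y * co GG_ok m t * y⁻¹ ∈ S)
    (h : ∀ σ t, T.a σ (y * co GG_ok m t * y⁻¹) =
      y * co GG_ok m (Units.map (σ : K →* K) t) * y⁻¹) : ¬(rst T S hS).Ani := fun an => by
  have h1 := an y.1 (fun a => ∑ i, m i * D.μ i a)
    (fun t => ⟨(y * co GG_ok m t * y⁻¹ : D.grp K).1, _, hy t, rfl⟩) (fun t => by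
      rw [← co_val]
      exact congrArg (fun x : D.grp K => x.1.1) (inv_mul_cancel_right (y * co GG_ok m t) y))
    fun σ t => up_inj S (h σ t)
  obtain ⟨t, ht⟩ := exists_gen (K := K) m
  have h2 : co (GG_ok (D := D) (k := K)) m t = 1 := Subtype.ext (Units.ext (by
    rw [co_val]
    simp only [fun a => congrFun h1 a, Pi.zero_apply, zpow_zero, Units.val_one, diagonal_one]
    rfl))
  have h3 := co_x (GG_ok (D := D) (k := K)) (m := m) hγ t 1
  rw [h2, one_mul, inv_one, mul_one, mul_one] at h3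
  exact ht γ hγ h0 (Units.ext (GG_ok.x_inj (Chev.R_ok D) hγ h3).symm)

/-- A normal subgroup of the fixed points of a stable subgroup with a projectively simple group of
fixed points. -/
theorem of_ps {n : Type} [Fintype n] [DecidableEq n] {H : Subgroup (GL n K)} {T : Tw k H}
    {S : Subgroup H} (hS : ∀ σ, ∀ g ∈ S, T.a σ g ∈ S) (ps : PSimple (rst T S hS).fix)
    (N : Subgroup H) (hN : ∀ g ∈ T.fix, g ∈ S → ∀ x ∈ N, g * x * g⁻¹ ∈ N) {a b : H} (ha : a ∈ N)
    (a1 : a ∈ T.fix) (a2 : a ∈ S) (b1 : b ∈ T.fix) (b2 : b ∈ S) (hab : a * b ≠ b * a) {g : H}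
    (g1 : g ∈ T.fix) (g2 : g ∈ S) : g ∈ N := by
  have f : ∀ x : (rst T S hS).fix, up S x.1 ∈ T.fix := fun x σ => congrArg (up S) (x.2 σ)
  let u : ∀ x ∈ T.fix, x ∈ S → (rst T S hS).fix := fun x h1 h2 =>
    ⟨⟨x.1, x, h2, rfl⟩, fun σ => up_inj S (h1 σ)⟩
  have := ps (N.comap ((up S).comp (rst T S hS).fix.subtype)) ⟨fun x hx y => by
    rw [Subgroup.mem_comap, map_mul, map_mul, map_inv]
    exact hN _ (f y) (up_mem S _) _ hx⟩ fun c => hab (congrArg (fun x => up S x.1)
      (Subgroup.mem_center_iff.1 (c (show u a a1 a2 ∈ _ from ha)) (u b b1 b2))).symm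
  exact (this.ge (Subgroup.mem_top (u g g1 g2)) :)

/-- Isotropic stable Levi subgroups of type `A`. -/
theorem an [IsSepClosure k K] (ia : IA) (hk : Glob k) (hD : SC D) {T : Tw k (D.grp K)} {m : ℕ}
    (hm : 0 < m) (ι : Fin m ↪ Fin D.R.r) (hA : ∀ i j, D.R.A (ι i) (ι j) = CartanMatrix.A m i j)
    (hS : ∀ σ, ∀ g ∈ LJ (GG D K) (Set.range ι), T.a σ g ∈ LJ (GG D K) (Set.range ι))
    (iso : ¬(rst T _ hS).Ani) : PSimple (rst T _ hS).fix := by
  haveI := Glob.inf hk
  haveI := Infinite.of_injective _ (algebraMap k K).injective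
  obtain ⟨ψ, p1, p2, -⟩ := levA hD K hm ι hA
  have e := P011UC.eqv_tr (rst T _ hS) ψ p1 p2
  obtain ⟨f⟩ := e.fix
  exact P011LT.PSimple.congr f (ia k K (m + 1) hk (by omega) _ fun h =>
    iso (P011UC.eqv_ani (P011UC.eqv_symm e) h))

end Vale.Agent.P011UF
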