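import Vale.Agent.P011UF.IF
import Vale.Agent.P011LD.H90

/-!
Triples of matrices of size two with a twisted action of the Galois group.
-/

set_option autoImplicit false
set_option linter.all false

namespace Vale.Agent.P011UF

open Vale.Agent.P011L (Glob)
open Vale.Agent.P011LD (Op)

section

variable {k K I : Type} [Field k] [Field K] [Algebra k K]

/-- The twisted action on the triples. -/
def bb (π : Equiv.Perm I) (γ : I → GL (Fin 2) K) (σ : K ≃ₐ[k] K)
    (x : I → Matrix (Fin 2) (Fin 2) K) : I → Matrix (Fin 2) (Fin 2) K :=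
  fun i => (γ i).1 * (x (π.symm i)).map σ * (γ i)⁻¹.1

/-- The fixed triples. -/
def Fb (π : (K ≃ₐ[k] K) → Equiv.Perm I) (γ : (K ≃ₐ[k] K) → I → GL (Fin 2) K)
    (x : I → GL (Fin 2) K) : Prop :=
  ∀ σ, bb (π σ) (γ σ) σ (fun i => (x i).1) = fun i => (x i).1

end

/-- The fixed triples with equal determinants are generated by those with rational separable
characteristic polynomial. -/
def QM : Prop := ∀ (k K : Type) [Field k] [Field K] [Algebra k K] [IsSepClosure k K], Glob k →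
  ∀ (I : Type) [Fintype I] [DecidableEq I], Fintype.card I = 3 →
  ∀ (π : (K ≃ₐ[k] K) → Equiv.Perm I) (γ : (K ≃ₐ[k] K) → I → GL (Fin 2) K),
    (∃ σ, π σ * π σ ≠ 1) →
    (∀ σ τ x, (∀ i, (x i).det = 1) →
      bb (π (σ * τ)) (γ (σ * τ)) (σ * τ) x = bb (π σ) (γ σ) σ (bb (π τ) (γ τ) τ x)) →
    (Op ⊤ fun σ => ∀ x, (∀ i, (x i).det = 1) → bb (π σ) (γ σ) σ x = fun i => (x i).map σ) →
    ∀ P : Subgroup (I → GL (Fin 2) K),
      (∀ x, Fb π γ x → (∃ t n : k, t ^ 2 ≠ 4 * n ∧ ∀ i, (x i).1.trace = algebraMap k K t ∧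
        (x i).1.det = algebraMap k K n) → x ∈ P) →
      ∀ x, Fb π γ x → (∀ i j, (x i).1.det = (x j).1.det) → x ∈ P

end Vale.Agent.P011UF
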