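import Vale.Agent.P011UF.D4

/-!
The Tits index of the isotropic trialitarian forms.
-/

set_option autoImplicit false
set_option linter.all false

namespace Vale.Agent.P011UF

open Vale.Agent.P011L Vale.Agent.P183CH Vale.Agent.P011U

/-- The central node is distinguished. -/
def HEIS : Prop := AllI fun _ _ _ _ _ D T => ∀ e, Ty D.R (CartanMatrix.D 4) e →
  ∀ J, J ⊆ {e.symm 1} → Par T J → FixP T (lv e)

end Vale.Agent.P011UF
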