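import Vale.Agent.P011UF.Tool
import Vale.Agent.P011UF.IF2
import Vale.Agent.P011UF.IF3
import Vale.Agent.P011UTS.Main
import Vale.Agent.P011UV.Par
import Vale.Agent.P011UQ.Tz
import Vale.Agent.P011UB.Main

/-!
Isotropic trialitarian forms.
-/

set_option autoImplicit false
set_option linter.all false

namespace Vale.Agent.P011UF

open Matrix Vale.Agent.P011L Vale.Agent.P183CH Vale.Agent.P011U Vale.Agent.P011UP
  Vale.Agent.P011UGM1 Vale.Agent.P011UTS Vale.Agent.P183CH.Chev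
open Matrix.SpecialLinearGroup (toGL)

variable {k K : Type} [Field k] [Field K] [Algebra k K] [IsSepClosure k K] {D : Chev}
  {T : Tw k (D.grp K)}

theorem bb_bG {I : Type} (π : Equiv.Perm I) (γ : I → GL (Fin 2) K) (σ : K ≃ₐ[k] K)
    (x : I → GL (Fin 2) K) :
    bb π γ σ (fun i => (x i).1) = fun i => (bG π γ (σ : K →+* K) x i).1 := rfl

theorem tri_of {g : _ → _} {c : _ → _} {π : _ → _}
    (h : ∀ σ, Std (GG D K) (T.a σ) σ (g σ) (c σ) (π σ)) (tri : Tri T) :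
    ∃ σ, π σ * π σ ≠ 1 := by
  obtain ⟨σ, g', c', π', h1, h2⟩ := tri
  exact ⟨σ, (P011UQ.std_uniq GG_ok (R_ok D) (h σ) h1 (map_one σ)).1 ▸ h2⟩

theorem levi (ia : IA) (qm : QM) (hk : Glob k) (hD : SC D) {e : Fin D.R.r ≃ Fin 4}
    (he : Ty D.R (CartanMatrix.D 4) e) (hT : Par T (lv e)) (tri : Tri T) {N : Subgroup (D.grp K)}
    (hN : ∀ g ∈ T.fix, ∀ x ∈ N, g * x * g⁻¹ ∈ N)
    (hU : ∀ g ∈ T.fix, g ∈ UP (GG D K) (lv e) → g ∈ N) {l : D.grp K} (l1 : l ∈ T.fix)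
    (l2 : l ∈ (GG D K).GJ (lv e)) : l ∈ N := by
  classical
  have hR := R_ok D
  have hΓ := GG_ok (D := D) (k := K)
  have inj : Function.Injective hΓ.hT := hD.hT_inj
  have s := star4 he
  obtain ⟨g, c, π, ⟨hs, -⟩, hg⟩ := hT
  choose z hz using fun σ => PH_surj hΓ hR s.og (hg σ).1
  obtain ⟨p, hp⟩ : ∃ p : (K ≃ₐ[k] K) → Equiv.Perm (lv e), p = fun σ => (π σ).subtypePerm (hg σ).2 :=
    ⟨_, rfl⟩
  obtain ⟨γ, hγ⟩ : ∃ γ : (K ≃ₐ[k] K) → lv e → GL (Fin 2) K,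
    γ = fun σ (i : lv e) => toGL (z σ i) * d2 (c σ ((π σ).symm i)) 1 := ⟨_, rfl⟩
  have act : ∀ σ {x y}, (x, y) ∈ RL hΓ hR s → (bG (p σ) (γ σ) σ x, T.a σ y) ∈ RL hΓ hR s :=
    fun σ x y h => by
      rw [hp, hγ]
      exact rl_act hΓ hR s (ψ := (T.a σ).toMonoidHom) (σ := (σ : K →+* K)) ((hz σ).symm ▸ hs σ) _ h
  have one : ∀ x : lv e → Matrix (Fin 2) (Fin 2) K, (∀ i, (x i).det = 1) →
      ∃ (X : lv e → GL (Fin 2) K) (y : _), x = (fun i => (X i).1) ∧ (X, y) ∈ RL hΓ hR s := fun x h =>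
    (rl_of_det hΓ hR s (x := fun i => toGL (⟨x i, h i⟩ : S K)) fun i j =>
      (h i).trans (h j).symm).elim fun y hy => ⟨_, y, rfl, hy⟩
  obtain ⟨x, hx⟩ := rl_of_GJ hΓ hR s l2
  haveI : Fintype (lv e) := Fintype.ofFinite _
  obtain ⟨⟨_, y⟩, ⟨h1, h2⟩, rfl⟩ := qm k K hk (lv e)
    ((Fintype.card_congr (show lv e ≃ {a : Fin 4 // a ≠ 1} from e.subtypeEquiv fun _ => Iff.rfl)).trans
      (by decide)) p γ
    ((tri_of hs tri).imp fun σ h r => h (Equiv.ext fun i => by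
      by_cases a : i ∈ lv e
      · subst hp
        exact congrArg Subtype.val (Equiv.ext_iff.1 r ⟨i, a⟩)
      · rw [(s.iff i).1 a, Equiv.Perm.mul_apply, fix_c he (hs σ).1, fix_c he (hs σ).1,
          Equiv.Perm.one_apply]))
    (fun σ τ x h => by
      obtain ⟨X, y, rfl, hy⟩ := one x h
      have := act (σ * τ) hy
      rw [map_mul] at this
      rw [bb_bG, bb_bG, bb_bG, rl_inj hΓ hR s inj this (act σ (act τ hy))])
    ((op_of_near (P011UC.near_fE T)).imp fun σ _ r x h => by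
      obtain ⟨X, y, rfl, hy⟩ := one x h
      have := rl_act hΓ hR s (ψ := (T.a σ).toMonoidHom) (σ := (σ : K →+* K)) (z := 1) (a := 1)
        (π := 1) ⟨fun _ _ => rfl, fun i u => by simp [r, P011UC.fE_x]⟩ (fun _ => Iff.rfl) hy
      rw [bb_bG, rl_inj hΓ hR s inj (act σ hy) this]
      funext i
      simp [bG, d2_one]
      rfl)
    ((RL hΓ hR s ⊓ N.comap (MonoidHom.snd _ _)).map (MonoidHom.fst _ _))
    (fun x h ⟨t, n, h1, h2⟩ => by
      obtain ⟨y, hy⟩ := rl_of_det hΓ hR s (x := x) fun i j => (h2 i).2.trans (h2 j).2.symm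
      refine ⟨(x, y), ⟨hy, tool1 ia hk hD he (fun σ => ⟨_, (hg σ).1, _, _, hs σ⟩) hN hU hy
        (fun σ => rl_fun hΓ hR s ?_ hy) h1 h2⟩, rfl⟩
      have := act σ hy
      rwa [show bG (p σ) (γ σ) σ x = x from funext fun i => Units.ext (congrFun (h σ) i)] at this)
    x (fun σ => by rw [bb_bG, rl_inj hΓ hR s inj (l1 σ ▸ act σ hx :) hx]) (rl_det hΓ hR s hx)
  exact rl_fun hΓ hR s h1 hx ▸ h2

theorem core (den : DEN) (ia : IA) (qm : QM) (hk : Glob k) (hD : SC D) {e : Fin D.R.r ≃ Fin 4}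
    (he : Ty D.R (CartanMatrix.D 4) e) (hT : Par T (lv e)) (tri : Tri T) : PSimple T.fix := by
  intro N hN hc
  haveI := Glob.inf hk
  obtain ⟨h1, -, h3⟩ := ts den k K D hD T _ hT (so_lv he (R_ok D)) N hN hc
  refine top_le_iff.1 fun g _ => ?_
  obtain ⟨x, hx, l, hl, rfl⟩ := h3 g
  obtain ⟨y, hy, r⟩ := levi ia qm hk hD he hT tri (N := N.map T.fix.subtype) (by
      rintro a ha _ ⟨b, hb, rfl⟩
      exact ⟨_, hN.conj_mem b hb ⟨a, ha⟩, rfl⟩)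
    (fun a ha r => ⟨⟨a, ha⟩, h1 _ r, rfl⟩) l.2 hl
  exact mul_mem hx (Subtype.ext r ▸ hy)

/-- Isotropic trialitarian forms. -/
theorem f1_of (den : DEN) (ia : IA) (qm : QM) (heis : HEIS) : F1 := by
  intro k K _ _ _ _ D hk hD T e he tri iso
  haveI := Glob.inf hk
  have nfx := P011UC.nfx P011UB.aut
  have eqt := fun T' h => P011UC.eqt P011UB.aut k K D hD T' T (P011UC.eqv_symm h) tri
  obtain ⟨J, hJ, hF⟩ := (P011UV.parx nfx k K D hD T).1 iso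
  obtain ⟨T', e1, p1⟩ := lev nfx k K D hD T J hF
  obtain ⟨T'', e2, p2⟩ : ∃ T'' : Tw k (D.grp K), Eqv T T'' ∧ Par T'' (lv e) := by
    have ⟨g, c, π, ⟨hs, _⟩, hg⟩ := p1
    obtain ⟨σ, h⟩ := tri_of hs (eqt T' e1)
    rcases types he (hs σ).1 h (hg σ).2 hJ with rfl | r
    · exact ⟨T', e1, p1⟩
    · exact (lev nfx k K D hD T' _ (heis k K D hD T' e he J r p1)).imp fun _ a =>
        ⟨P011UC.eqv_trans e1 a.1, a.2⟩
  obtain ⟨f⟩ := e2.fix
  exact P011LT.PSimple.congr f (core den ia qm hk hD he p2 (eqt T'' e2))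

end Vale.Agent.P011UF
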