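import Vale.Agent.P011UGM1.Orb

/-!
The Levi subgroup of the leaves of a star shaped diagram.
-/

set_option autoImplicit false
set_option linter.all false

namespace Vale.Agent.P011UF

open Matrix Vale.Agent.P183CH Vale.Agent.P011U Vale.Agent.P011UP Vale.Agent.P011UGM1
open Matrix.SpecialLinearGroup (toGL)

variable {K : Type} [Field K]

/-- diagonal matrices -/
def d2 (a b : Kˣ) : GL (Fin 2) K :=
  ⟨!![a, 0; 0, b], !![(a⁻¹ : Kˣ), 0; 0, (b⁻¹ : Kˣ)], by simp [one_fin_two], by simp [one_fin_two]⟩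

theorem d2_val (a b : Kˣ) : (d2 a b).1 = !![(a : K), 0; 0, b] := rfl

theorem d2_inv (a b : Kˣ) : (d2 a b)⁻¹ = d2 a⁻¹ b⁻¹ := Units.ext rfl

theorem d2_mul (a b a' b' : Kˣ) : d2 a b * d2 a' b' = d2 (a * a') (b * b') :=
  Units.ext (by simp [d2_val])

theorem d2_one : d2 (1 : Kˣ) 1 = 1 := Units.ext (by simp [d2_val, one_fin_two])

theorem d2_det (a b : Kˣ) : (d2 a b).1.det = a * b := by simp [d2_val]

theorem gm_d2 (σ : K →+* K) (a b : Kˣ) :
    gm σ (d2 a b) = d2 (Units.map (σ : K →* K) a) (Units.map (σ : K →* K) b) :=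
  Units.ext (Matrix.ext fun i j => by
    show σ ((d2 a b).1 i j) = _
    fin_cases i <;> fin_cases j <;> simp [d2_val])

theorem dg_d2 (t : Kˣ) : toGL (dg t : S K) = d2 t t⁻¹ := Units.ext rfl

/-- semilinear inner automorphisms -/
def tw (δ : GL (Fin 2) K) (σ : K →+* K) : S K →* S K where
  toFun y := ⟨δ.1 * y.1.map σ * δ⁻¹.1, by
    rw [det_units_conj, ← RingHom.mapMatrix_apply, ← RingHom.map_det, y.2, map_one]⟩
  map_one' := Subtype.ext (by simp)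
  map_mul' a b := Subtype.ext (by
    show δ.1 * (a.1 * b.1).map σ * δ⁻¹.1 = δ.1 * a.1.map σ * δ⁻¹.1 * (δ.1 * b.1.map σ * δ⁻¹.1)
    simp only [Matrix.map_mul, mul_assoc, Units.inv_mul_cancel_left])

theorem tw_val (δ : GL (Fin 2) K) (σ : K →+* K) (y : S K) :
    toGL (tw δ σ y) = δ * gm σ (toGL y) * δ⁻¹ := Units.ext rfl

theorem tw_eu (a b : Kˣ) (σ : K →+* K) (u : K) :
    tw (d2 a b) σ (eu u) = eu (a * (b⁻¹ : Kˣ) * σ u) := Subtype.ext (by
  show (d2 a b).1 * (eu u).1.map σ * (d2 a b)⁻¹.1 = _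
  rw [show (eu u).1.map σ = (eu (σ u)).1 from Matrix.ext fun i j => by
    fin_cases i <;> fin_cases j <;> simp [eu, mk]]
  simp [d2_inv, d2_val, eu, mk, mul_right_comm])

theorem tw_el (a b : Kˣ) (σ : K →+* K) (u : K) :
    tw (d2 a b) σ (el u) = el (b * (a⁻¹ : Kˣ) * σ u) := Subtype.ext (by
  show (d2 a b).1 * (el u).1.map σ * (d2 a b)⁻¹.1 = _
  rw [show (el u).1.map σ = (el (σ u)).1 from Matrix.ext fun i j => by
    fin_cases i <;> fin_cases j <;> simp [el, mk]]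
  simp [d2_inv, d2_val, el, mk, mul_right_comm])

theorem gm_id (x : GL (Fin 2) K) : gm (RingHom.id K) x = x := Units.ext rfl

/-- the twisted action on the tuples -/
def bG {I : Type} (π : Equiv.Perm I) (γ : I → GL (Fin 2) K) (σ : K →+* K) (x : I → GL (Fin 2) K) :
    I → GL (Fin 2) K := fun i => γ i * gm σ (x (π.symm i)) * (γ i)⁻¹

/-- star shaped diagrams -/
structure Star (R : RS) (J : Set (Fin R.r)) (c : Fin R.r) : Prop where
  og : Og R J
  iff : ∀ j, j ∉ J ↔ j = c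
  adj : ∀ j ∈ J, R.A j c = -1
  ne : J.Nonempty

variable {R : RS} {G : Type} [Group G] {Γ : RG R K G} (hΓ : Γ.Ok) (hR : R.Ok)
  {J : Set (Fin R.r)} {c : Fin R.r} (s : Star R J c)

theorem conj_h (d : Kˣ) (M : Fin R.r → S K) : Γ.h c d * PH hΓ hR s.og M * (Γ.h c d)⁻¹ =
    PH hΓ hR s.og fun j => tw (d2 1 d) (RingHom.id K) (M j) :=
  PH_map hΓ hR s.og (MulAut.conj (Γ.h c d)).toMonoidHom 1 (fun _ => tw (d2 1 d) (RingHom.id K))
    (fun _ => Iff.rfl) (fun j hj => DFunLike.congr_fun (hom_ext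
      (f := (MulAut.conj (Γ.h c d)).toMonoidHom.comp (phi hΓ hR j))
      (g := (phi hΓ hR j).comp (tw (d2 1 d) (RingHom.id K))) (fun u => by
        simp [tw_eu, phi_u, hΓ.hx c d _ (hR.simple j), RS.pr_α, s.adj j hj]) fun u => by
        simp [tw_el, phi_l, hΓ.hx c d _ (hR.neg_mem (hR.simple j)), RS.pr_neg, RS.pr_α,
          s.adj j hj])) M

/-- the graph of the parametrisation of the Levi subgroup -/
def RL : Subgroup ((J → GL (Fin 2) K) × G) where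
  carrier := {p | ∃ (M : Fin R.r → S K) (d : Kˣ), (∀ i : J, p.1 i = toGL (M i) * d2 1 d) ∧
    p.2 = PH hΓ hR s.og M * Γ.h c d}
  one_mem' := ⟨1, 1, fun i => by simp [d2_one], by simp⟩
  mul_mem' := by
    rintro p q ⟨M, d, h1, h2⟩ ⟨M', d', h3, h4⟩
    refine ⟨M * fun j => tw (d2 1 d) (RingHom.id K) (M' j), d * d', fun i => ?_, ?_⟩
    · rw [Prod.fst_mul, Pi.mul_apply, h1, h3, Pi.mul_apply, map_mul, tw_val, gm_id,
        ← one_mul (1 : Kˣ), ← d2_mul, one_mul]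
      group
    · rw [Prod.snd_mul, h2, h4, map_mul, map_mul, ← conj_h hΓ hR s]
      group
  inv_mem' := by
    rintro p ⟨M, d, h1, h2⟩
    refine ⟨fun j => tw (d2 1 d⁻¹) (RingHom.id K) (M⁻¹ j), d⁻¹, fun i => ?_, ?_⟩
    · rw [Prod.fst_inv, Pi.inv_apply, h1, tw_val, gm_id, Pi.inv_apply, map_inv,
        inv_mul_cancel_right, _root_.mul_inv_rev, d2_inv, inv_one]
    · rw [Prod.snd_inv, h2, ← conj_h hΓ hR s, map_inv, map_inv]
      group

variable {x x' : J → GL (Fin 2) K} {g g' : G}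

theorem rl_PH (M : Fin R.r → S K) : (fun i : J => toGL (M i), PH hΓ hR s.og M) ∈ RL hΓ hR s :=
  ⟨M, 1, fun i => by simp [d2_one], by simp⟩

theorem rl_det (h : (x, g) ∈ RL hΓ hR s) (i j : J) : (x i).1.det = (x j).1.det := by
  obtain ⟨M, d, h1, -⟩ := h
  have : ∀ i, (x i).1.det = d := fun i => by
    rw [show x i = _ from h1 i, Units.val_mul, det_mul, d2_det]
    simp
  rw [this, this]

theorem rl_GJ (h : (x, g) ∈ RL hΓ hR s) : g ∈ Γ.GJ J := by
  obtain ⟨M, d, -, h2⟩ := h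
  exact (show g = _ from h2) ▸ mul_mem (Subgroup.mem_sup_left (PH_LJ hΓ hR s.og M))
    (Subgroup.mem_sup_right (RG.h_mem c d))

theorem rl_fun (h : (x, g) ∈ RL hΓ hR s) (h' : (x, g') ∈ RL hΓ hR s) : g = g' := by
  obtain ⟨M, d, h1, h2⟩ := mul_mem (inv_mem h) h'
  simp only [Prod.inv_mk, Prod.mk_mul_mk, inv_mul_cancel, Pi.one_apply] at h1 h2
  obtain ⟨i, hi⟩ := s.ne
  have e : d = 1 := Units.ext (by
    simpa [d2_det] using congrArg (fun y : GL (Fin 2) K => y.1.det) (h1 ⟨i, hi⟩).symm)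
  subst e
  rw [PH_congr hΓ hR s.og (N := 1) fun j hj => SpecialLinearGroup.toGL_injective (by
    simpa [d2_one] using (h1 ⟨j, hj⟩).symm)] at h2
  exact inv_mul_eq_one.1 (by simpa using h2)

theorem rl_inj (inj : Function.Injective hΓ.hT) (h : (x, g) ∈ RL hΓ hR s)
    (h' : (x', g) ∈ RL hΓ hR s) : x = x' := by
  obtain ⟨M, d, h1, h2⟩ := mul_mem (inv_mem h) h'
  simp only [Prod.inv_mk, Prod.mk_mul_mk, inv_mul_cancel] at h1 h2
  obtain ⟨h3, h4⟩ := PH_uniq hΓ hR s.og inj (M := M) (s := Pi.mulSingle c d⁻¹) (by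
    rw [hΓ.hT_single, map_inv]
    exact eq_inv_of_mul_eq_one_left h2.symm)
  have e : d = 1 := by simpa using h4 c ((s.iff c).2 rfl)
  refine inv_mul_eq_one.1 (funext fun i => ?_)
  rw [h1, h3 i i.2, e]
  simp [d2_one]

theorem rl_of_GJ (h : g ∈ Γ.GJ J) : ∃ x, (x, g) ∈ RL hΓ hR s := by
  obtain ⟨M, t, h1, rfl⟩ := GJ_coord hΓ hR s.og h
  refine ⟨fun i => toGL (M i) * d2 1 (t c), M, t c, fun _ => rfl, ?_⟩
  rw [← hΓ.hT_single]
  refine congrArg (_ * hΓ.hT ·) (funext fun j => ?_)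
  by_cases e : j = c
  · simp [e]
  · rw [h1 j (not_not.1 (mt (s.iff j).1 e)), Pi.mulSingle_eq_of_ne e]

theorem rl_of_det (h : ∀ i j, (x i).1.det = (x j).1.det) : ∃ g, (x, g) ∈ RL hΓ hR s := by
  classical
  obtain ⟨i, hi⟩ := s.ne
  obtain ⟨d, hd⟩ : ∃ d : Kˣ, (x ⟨i, hi⟩).1.det = d := ⟨GeneralLinearGroup.det (x ⟨i, hi⟩), rfl⟩
  have : ∀ j, ∃ M : S K, ∀ e : j ∈ J, x ⟨j, e⟩ = toGL M * d2 1 d := fun j => by
    by_cases e : j ∈ J
    · obtain ⟨y, hy⟩ : ∃ y, y = x ⟨j, e⟩ * (d2 1 d)⁻¹ := ⟨_, rfl⟩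
      have h1 : y.1.det = 1 := by
        rw [hy, d2_inv, Units.val_mul, det_mul, d2_det, h _ ⟨i, hi⟩, hd]
        simp
      refine ⟨⟨y.1, h1⟩, fun _ => ?_⟩
      rw [show toGL (⟨y.1, h1⟩ : S K) = y from Units.ext rfl, hy, inv_mul_cancel_right]
    · exact ⟨1, fun c => absurd c e⟩
  choose M hM using this
  exact ⟨_, M, d, fun j => hM j j.2, rfl⟩

theorem rl_d2 (a b : Kˣ) {t : Fin R.r → Kˣ} (h1 : ∀ j ∈ J, t j = a) (h2 : t c = a * b) :
    (fun _ : J => d2 a b, hΓ.hT t) ∈ RL hΓ hR s := by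
  classical
  refine ⟨fun j => dg (if j ∈ J then a else 1), a * b, fun i => ?_, ?_⟩
  · simp [i.2, dg_d2, d2_mul]
  · rw [PH_dg hΓ hR s.og fun m a => if_neg a, ← hΓ.hT_single, ← map_mul]
    refine congrArg hΓ.hT (funext fun j => ?_)
    by_cases e : j = c
    · simp [e, (s.iff c).2 rfl, h2]
    · have := not_not.1 (mt (s.iff j).1 e)
      simp [this, h1 j this, Pi.mulSingle_eq_of_ne e]

theorem rl_act {ψ : G →* G} {σ : K →+* K} {z : Fin R.r → S K} {a : Fin R.r → Kˣ}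
    {π : Equiv.Perm (Fin R.r)} (h : Std Γ ψ σ (PH hΓ hR s.og z) a π) (hπ : ∀ j, π j ∈ J ↔ j ∈ J)
    (e : (x, g) ∈ RL hΓ hR s) : (bG (π.subtypePerm hπ)
      (fun i => toGL (z i) * d2 (a (π.symm i)) 1) σ x, ψ g) ∈ RL hΓ hR s := by
  obtain ⟨M, d, h1, h2⟩ := e
  have hc : π c = c := (s.iff _).1 (mt (hπ c).1 ((s.iff c).2 rfl))
  have h3 := PH_map hΓ hR s.og ((MulAut.conj (PH hΓ hR s.og z)).symm.toMonoidHom.comp ψ) π
    (fun j => tw (d2 (a (π.symm j)) 1) σ) hπ (fun j hj => DFunLike.congr_fun (hom_ext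
      (f := ((MulAut.conj (PH hΓ hR s.og z)).symm.toMonoidHom.comp ψ).comp (phi hΓ hR j))
      (g := (phi hΓ hR (π j)).comp (tw (d2 (a (π.symm (π j))) 1) σ)) (fun u => by
        simp [tw_eu, phi_u, (h.2 j u).1, mul_assoc]) fun u => by
        simp [tw_el, phi_l, (h.2 j u).2, mul_assoc])) M
  have h4 : (fun i : J => d2 (a (π.symm i)) 1 * gm σ (x ((π.subtypePerm hπ).symm i)) *
      (d2 (a (π.symm i)) 1)⁻¹, (PH hΓ hR s.og z)⁻¹ * ψ g * PH hΓ hR s.og z) ∈ RL hΓ hR s := by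
    refine ⟨fun j => tw (d2 (a (π.symm j)) 1) σ (M (π.symm j)), Units.map (σ : K →* K) d,
      fun i => ?_, ?_⟩
    swap
    · rw [← h3, show g = _ from h2, map_mul, std_h hΓ h, hc]
      simp [mul_assoc]
    · show _ * gm σ (x _) * _ = _
      rw [show x _ = _ from h1 _, map_mul, gm_d2, tw_val, map_one]
      simp only [mul_assoc, d2_inv, d2_mul, mul_one, one_mul, inv_one]
      rfl
  have h5 := mul_mem (mul_mem (rl_PH hΓ hR s z) h4) (inv_mem (rl_PH hΓ hR s z))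
  refine (congrArg (· ∈ RL hΓ hR s) (Prod.ext (funext fun i => ?_) ?_)).mp h5
  · simp [bG, mul_assoc]
  · simp [mul_assoc]

end Vale.Agent.P011UF
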